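import Crest.Agent.X262.Be94.Inj
import Crest.Agent.X262.Rsd.Main

/-!
# Row 262, G4 / TR (helper94), part 5: a very general direction, `KapStmt`

* `exists_dir` : the intersection with a line bundle is the trace of the obstruction in a
  direction taken from a finite dimensional space;
* `exists_gen_dir` : linear algebra, `kap_of`, `kapStmt`.
-/

set_option autoImplicit false
set_option linter.unusedSectionVars false

open MvPolynomial Submodule
open scoped KaehlerDifferential

noncomputable section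

namespace Crest.Agent.X262.Be94

open Crest.Agent.X277 Crest.Agent.X277.Lef Crest.Agent.X277.AN.G1 Crest.Agent.X277.BD
open Crest.Agent.X277.BD.Br (On oP kP At at_y)
open Crest.Agent.X277.Cns (Ov)
open Crest.Agent.X262.Top (Hyp)
open Crest.Agent.X262.Mv99

variable {F : Type} [Field F] [Algebra ℂ F] {Γ : MvPolynomial (Fin 4) ℂ} {S : Hyp 3 Γ F}

theorem r1_rg {x : Pts S.P} {V : RZ ℂ F} (hV : Ov x V.1) {ζ : Ω[F⁄ℂ]} (h : ζ ∈ R1 x) :
    ∀ c : ℂ, c • ζ ∈ Rsd.Rg V := by
  induction h using Submodule.span_induction with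
  | mem _ h =>
    obtain ⟨a, ha, b, hb, rfl⟩ := h
    exact fun c => AddSubgroup.subset_closure
      ⟨c • a, hV _ ((lp x).O.smul_mem ha c), b, hV _ hb, (smul_assoc _ _ _).symm⟩
  | zero => exact fun c => by rw [smul_zero]; exact zero_mem _
  | add _ _ _ _ h1 h2 => exact fun c => by rw [smul_add]; exact add_mem (h1 c) (h2 c)
  | smul c' _ _ h => exact fun c => by rw [smul_smul]; exact h _

/-- a general member of a finite dimensional space spanned by integer valued functions -/
theorem exists_gen_dir {X Y : Type} (q : Y → X → ℤ) (W : Submodule ℂ (X → ℂ)) (hW : W.FG)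
    (hq : ∀ y, (fun x => (q y x : ℂ)) ∈ W) :
    ∃ φ ∈ W, ∀ x, φ x = 0 ↔ ∀ y, q y x = 0 := by
  obtain ⟨T, hT, e⟩ := (fg_span_iff_fg_span_finset_subset
    (Set.range fun y x => (q y x : ℂ))).1 (hW.of_le (span_le.2 (Set.range_subset_iff.2 hq)))
  obtain ⟨t, ht⟩ := exists_linearIndependent_of_le_rank (R := ℚ) (M := ℂ) (n := T.card) (by
    rw [Complex.rank_rat_complex]
    exact Cardinal.nat_lt_continuum _ |>.le)
  choose y hy using fun s : T => hT s.2
  refine ⟨∑ s : T, t (T.equivFin s) • fun x => (q (y s) x : ℂ),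
    sum_mem fun s _ => smul_mem _ _ (hq _), fun x => ⟨fun h y' => ?_, fun h => by simp [h]⟩⟩
  have h1 := Fintype.linearIndependent_iff.1 (ht.comp _ T.equivFin.injective)
    (fun s => (q (y s) x : ℚ)) (by simpa [mul_comm, Rat.smul_def] using h)
  have h2 : span ℂ (T : Set (X → ℂ)) ≤ LinearMap.ker (LinearMap.proj x) := span_le.2 fun s hs => by
    have h3 := congrFun (hy ⟨s, hs⟩) x
    have h4 : q (y ⟨s, hs⟩) x = 0 := by exact_mod_cast h1 ⟨s, hs⟩
    simpa [h4] using h3.symm
  rw [← e] at h2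
  simpa using h2 (subset_span ⟨y', rfl⟩)

theorem exists_dir [Algebra.EssFiniteType ℂ F] (hΓ : Qt Γ) (B : Module.Basis (Fin 2) F Ω[F⁄ℂ]) :
    ∃ W : Submodule ℂ (On S.P → ℂ), W.FG ∧ (∀ N', (fun N => (bnum [N.1, N'] : ℂ)) ∈ W) ∧
      ∀ φ ∈ W, ∃ η, Coc S η ∧ ∀ N : On S.P, Lifts S η N ↔ φ N = 0 := by
  classical
  obtain ⟨J, _, κ, hκ, H⟩ := inj (S := S) hΓ B
  obtain ⟨tr, -, t1, t2⟩ := exists_tr (S := S) hΓ
  choose α hα using fun N : On S.P => exists_conn N.2
  refine ⟨span ℂ (Set.range fun j N => tr (ob (κ j) (α N))), fg_span (Set.finite_range _),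
    fun N' => ?_, fun φ hφ => ?_⟩
  · have h1 := mem_span_of_iInf_ker_le_ker (𝕜 := ℂ)
      (L := fun j => Finsupp.linearCombination ℂ fun N => tr (ob (κ j) (α N)))
      (K := Finsupp.linearCombination ℂ fun N : On S.P => (bnum [N.1, N'] : ℂ)) fun l hl => by
        have h2 : ∀ a b, ∀ x ∈ U S a, x ∈ U S b → (∑ N : l.support, l N • α N a) -
            ∑ N : l.support, l N • α N b ∈ R1 x := fun a b x ha hb => by
          rw [← Finset.sum_sub_distrib]
          exact sum_mem fun N _ => smul_sub (l N) (α N a) (α N b) ▸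
            smul_mem _ _ (conn_sub N.1.2 (hα N) ha hb)
        obtain ⟨ω, hω⟩ := H (fun a => ∑ N : l.support, l N • α N a) h2 fun j =>
          t2 _ (ob_mem (hκ j) (h2 1 0)) (by
            have h3 := LinearMap.mem_ker.1 ((mem_iInf _).1 hl j)
            rw [Finsupp.linearCombination_apply, Finsupp.sum, ← Finset.sum_coe_sort] at h3
            simpa only [ob, ← Finset.sum_sub_distrib, ← smul_sub, map_sum,
              LinearMap.map_smul_of_tower, map_smul, smul_comm] using h3)
        have h3 := Rsd.bnum_of_log ω (fun N : l.support => (N.1.1 : BD ℂ F)) (fun N => l N)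
          (fun V => by
            obtain ⟨x, hx⟩ := Br.exists_ov' S.P V
            obtain ⟨a, ha⟩ := exists_U hΓ x
            choose g hg using fun N : l.support => N.1.2 x
            refine ⟨g, fun N => hg N V hx, ?_⟩
            have h4 := r1_rg hx (sub_mem (sum_mem (t := Finset.univ) fun (N : l.support) _ =>
              smul_mem _ (l N) (hα N a x ha _ (hg N))) (hω a x ha)) 1
            simp only [one_smul, smul_sub, Finset.sum_sub_distrib] at h4
            rwa [sub_sub_sub_cancel_left] at h4) [N']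
        rw [LinearMap.mem_ker, Finsupp.linearCombination_apply, Finsupp.sum,
          ← Finset.sum_coe_sort]
        exact h3
    have := Fintype.ofFinite J
    obtain ⟨c, hc⟩ := (mem_span_range_iff_exists_fun ℂ).1 h1
    refine (mem_span_range_iff_exists_fun ℂ).2 ⟨c, funext fun N => ?_⟩
    simpa using LinearMap.congr_fun hc (Finsupp.single N 1)
  · suffices h : ∃ η, Coc S η ∧ ∀ N, tr (ob η (α N)) = φ N by
      obtain ⟨η, h1, h2⟩ := h
      exact ⟨η, h1, fun N => (lifts_iff N.2 (hα N) h1).trans (h2 N ▸ ⟨t1 _,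
        t2 _ (ob_mem h1 fun x ha hb => conn_sub N.2 (hα N) ha hb)⟩)⟩
    induction hφ using Submodule.span_induction with
    | mem _ h =>
      obtain ⟨j, rfl⟩ := h
      exact ⟨κ j, hκ j, fun _ => rfl⟩
    | zero => exact ⟨0, fun a b x _ _ f _ => by simp, fun N => by simp [ob]⟩
    | add _ _ _ _ h1 h2 =>
      obtain ⟨η, a1, a2⟩ := h1
      obtain ⟨η', b1, b2⟩ := h2
      refine ⟨η + η', fun a b x ha hb f hf => ?_, fun N => ?_⟩
      · rw [Pi.add_apply, Pi.add_apply, add_sub_add_comm]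
        exact add_mem (a1 a b x ha hb f hf) (b1 a b x ha hb f hf)
      · rw [Pi.add_apply, ← a2, ← b2, ob, Pi.add_apply, Pi.add_apply, add_sub_add_comm, map_add,
          LinearMap.add_apply, map_add, ob, ob]
    | smul c _ _ h =>
      obtain ⟨η, a1, a2⟩ := h
      refine ⟨algebraMap ℂ F c • η, fun a b x ha hb f hf => ?_, fun N => ?_⟩
      · rw [Pi.smul_apply, Pi.smul_apply, ← smul_sub]
        exact mul_mem ((lp x).O.algebraMap_mem c) (a1 a b x ha hb f hf)
      · rw [Pi.smul_apply, ← a2, ob, Pi.smul_apply, Pi.smul_apply, ← smul_sub, map_smul,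
          LinearMap.smul_apply, algebraMap_smul, map_smul, ob]

theorem kap_of (H : MvStmt) : KapStmt := by
  intro F _ _ _ Γ S B hΓ M hM h0
  obtain ⟨W, h1, h2, h3⟩ := exists_dir (S := S) hΓ B
  obtain ⟨φ, hφ, h4⟩ := exists_gen_dir
    (fun (N' : BD ℂ F) (N : On S.P) =>
      bnum [M, M] * bnum [N.1, N'] - bnum [N.1, M] * bnum [M, N']) W h1 fun N' => by
      convert sub_mem (smul_mem W (bnum [M, M] : ℂ) (h2 N'))
        (smul_mem W (bnum [M, N'] : ℂ) (h2 M)) using 1
      funext N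
      simp [mul_comm]
  obtain ⟨η₀, a1, a2⟩ := h3 _ (h2 M)
  obtain ⟨η, b1, b2⟩ := h3 φ hφ
  obtain ⟨D, hD⟩ := H F Γ S B hΓ M hM
    ⟨η₀, a1, fun h => h0 (by exact_mod_cast (a2 ⟨M, hM⟩).1 h)⟩ η
    ((b2 ⟨M, hM⟩).2 ((h4 _).2 fun _ => sub_self _))
  refine ⟨D, fun N hN ⟨r, hr⟩ N' _ => sub_eq_zero.1
    ((h4 ⟨N, hN⟩).1 ((b2 ⟨N, hN⟩).1 ⟨r, fun a b x ha hb => ?_⟩) N')⟩
  simpa only [hD, sub_sub_sub_cancel_right] using hr a b x ha hb

theorem kapStmt : KapStmt := kap_of mvStmt

end Crest.Agent.X262.Be94
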