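import Crest.Agent.X262.Be94.Vf
import Crest.Agent.X262.Mv99.Wrap

/-!
# Row 262, G4 / TR (helper94), part 3: connections, the obstruction, `H2Stmt`

* `exists_conn` : every line bundle has a connection on each chart;
* `op_iff`      : first order operators in terms of a connection;
* `ob η α`, `lifts_iff` : the obstruction to lifting a line bundle;
* `h2Stmt`, `mvStmt`.
-/

set_option autoImplicit false
set_option linter.unusedSectionVars false

open MvPolynomial Submodule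
open scoped KaehlerDifferential

noncomputable section

namespace Crest.Agent.X262.Be94

open Crest.Agent.X277 Crest.Agent.X277.Lef Crest.Agent.X277.AN.G1 Crest.Agent.X277.BD
open Crest.Agent.X277.BD.Br (On oP kP At at_y)
open Crest.Agent.X262.Top (Hyp)
open Crest.Agent.X262.Mv99

variable {F : Type} [Field F] [Algebra ℂ F] {Γ : MvPolynomial (Fin 4) ℂ} {S : Hyp 3 Γ F}
  {I : Finset (Fin 3)} {D : Derivation ℂ F F} {M : BD ℂ F} {η α' : Fin 3 → Derivation ℂ F F}
  {α : Fin 3 → Ω[F⁄ℂ]} {x : Pts S.P} {ζ : Ω[F⁄ℂ]}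

local notation "dd" => KaehlerDifferential.D ℂ F

theorem r1_mem {a c : F} (ha : a ∈ oR x) (hc : c ∈ oR x) : a • dd c ∈ R1 x :=
  subset_span ⟨a, ha, c, hc, rfl⟩

theorem r1_smul (h : ζ ∈ R1 x) : ∀ u ∈ oR x, u • ζ ∈ R1 x := by
  induction h using Submodule.span_induction with
  | mem _ h =>
    obtain ⟨a, ha, c, hc, rfl⟩ := h
    intro u hu
    rw [smul_smul]
    exact r1_mem (mul_mem hu ha) hc
  | zero => exact fun u _ => by rw [smul_zero]; exact zero_mem _
  | add _ _ _ _ h1 h2 => exact fun u hu => by rw [smul_add]; exact add_mem (h1 u hu) (h2 u hu)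
  | smul c _ _ h => exact fun u hu => by rw [smul_comm]; exact smul_mem _ c (h u hu)

theorem pg_mem (hD : RV x D) (h : ζ ∈ R1 x) : pg D ζ ∈ oR x := by
  induction h using Submodule.span_induction with
  | mem _ h =>
    obtain ⟨a, ha, c, hc, rfl⟩ := h
    rw [map_smul, pg_D]
    exact mul_mem ha (hD c hc)
  | zero => rw [map_zero]; exact zero_mem _
  | add _ _ _ _ h1 h2 => rw [map_add]; exact add_mem h1 h2
  | smul c _ _ h => rw [LinearMap.map_smul_of_tower]; exact (lp x).O.smul_mem h c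

theorem exists_gen {a : Fin 3} (hM : M ∈ On S.P) (hx : x ∈ U S a) :
    ∃ s ∈ GmM S M {a}, At M x s := by
  obtain ⟨k, hk⟩ := Br.serre hM
  obtain ⟨g, hg⟩ := add_mem hM (nsmul_mem Br.oP_mem k) x
  obtain ⟨σ, h1, h2⟩ := hg.exists_sec (hk k le_rfl)
  refine ⟨σ / S.y a.castSucc ^ k, fun x' hx' => ?_,
    by simpa using h2.sub ((at_y (P := S.P) hx).nsmul k)⟩
  obtain ⟨g', hg'⟩ := hM x'
  rw [mem_nS_iff hg', div_div, mul_comm]
  exact (hg'.add ((at_y (P := S.P) (mem_UI_one.1 hx')).nsmul k)).div_mem h1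

theorem exists_conn (hM : M ∈ On S.P) : ∃ α, Conn S M α := by
  have key : ∀ a : Fin 3, ∃ α : Ω[F⁄ℂ], ∀ x ∈ U S a, ∀ g, At M x g → α - g⁻¹ • dd g ∈ R1 x := by
    intro a
    let N : AddSubgroup F :=
      { carrier := {f | ∃ α : Ω[F⁄ℂ], ∀ x ∈ U S a, ∀ g, At M x g → α - f • g⁻¹ • dd g ∈ R1 x}
        zero_mem' := ⟨0, fun x _ g _ => by simp⟩
        add_mem' := by
          rintro f f' ⟨α, h⟩ ⟨α', h'⟩
          refine ⟨α + α', fun x hx g hg => ?_⟩
          rw [add_smul, add_sub_add_comm]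
          exact add_mem (h x hx g hg) (h' x hx g hg)
        neg_mem' := by
          rintro f ⟨α, h⟩
          refine ⟨-α, fun x hx g hg => ?_⟩
          rw [neg_smul, neg_sub_neg, ← neg_sub]
          exact neg_mem (h x hx g hg) }
    obtain ⟨k, α, h⟩ := exists_pow_mul_mem (P := S.P) (i := a.castSucc) N (f := (1 : F))
      (by
        rintro c hc f ⟨α, h⟩
        refine ⟨c • α, fun x hx g hg => ?_⟩
        rw [smul_assoc, ← smul_sub]
        exact r1_smul (h x hx g hg) c (A_le (P := S.P) hx hc))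
      (one_mem _) fun x hx _ => by
        obtain ⟨s, hs, h1⟩ := exists_gen (a := a) hM hx
        obtain ⟨t, ht, h2⟩ := exists_gen (a := a) (neg_mem hM) hx
        refine ⟨s * t, (mem_A_iff (P := S.P)).2 fun x' hx' => ?_, ?_, t • dd s,
          fun x' hx' g hg => ?_⟩
        · have := mul_mem_nS (hs x' (mem_UI_one.2 hx')) (ht x' (mem_UI_one.2 hx'))
          rwa [add_neg_cancel, mem_nS_zero] at this
        · have := (h1.add h2).ev_div_ne (g' := 1) (by rw [add_neg_cancel]; exact Br.at_zero x)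
          rwa [div_one] at this
        · have h3 := (mem_nS_iff hg).1 (hs x' (mem_UI_one.2 hx'))
          have h4 := (mem_nS_iff hg.neg).1 (ht x' (mem_UI_one.2 hx'))
          have h5 := hg.ne
          convert r1_mem h4 h3 using 1
          rw [Derivation.leibniz_div, smul_sub, smul_sub, smul_smul, smul_smul, smul_smul,
            smul_smul, smul_smul, smul_eq_mul]
          congr 2 <;> field_simp
    exact ⟨α, fun x hx g hg => by simpa using h x hx g hg⟩
  choose α h using key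
  exact ⟨α, h⟩

theorem conn_sub {a b : Fin 3} (hM : M ∈ On S.P) (h : Conn S M α) (ha : x ∈ U S a)
    (hb : x ∈ U S b) : α a - α b ∈ R1 x := by
  obtain ⟨g, hg⟩ := hM x
  simpa using sub_mem (h a x ha g hg) (h b x hb g hg)

theorem op_iff {a : Fin 3} {r : F} (hM : M ∈ On S.P) (h : Conn S M α) (ha : x ∈ U S a) :
    Op (oR x) (nS M x) D r ↔ RV x D ∧ r + pg D (α a) ∈ oR x := by
  obtain ⟨g, hg⟩ := hM x
  have h0 := hg.ne
  refine and_congr_right fun hD => ?_
  have h1 := pg_mem hD (h a x ha g hg)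
  rw [map_sub, map_smul, pg_D, smul_eq_mul] at h1
  constructor
  · intro h2
    have h3 := (mem_nS_iff hg).1 (h2 g ((mem_nS_iff hg).2 (by rw [div_self h0]; exact one_mem _)))
    convert add_mem h1 h3 using 1
    field_simp
    ring
  · intro h2 z hz
    rw [mem_nS_iff hg] at hz ⊢
    convert add_mem (hD _ hz) (mul_mem hz (sub_mem h2 h1)) using 1
    rw [Derivation.leibniz_div, smul_eq_mul, smul_eq_mul, smul_eq_mul]
    field_simp
    ring

/-- the obstruction -/
def ob (η : Fin 3 → Derivation ℂ F F) (α : Fin 3 → Ω[F⁄ℂ]) : F := pg (η 1 - η 2) (α 1 - α 0)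

theorem ob_mem (hη : Coc S η) (h : ∀ x ∈ U S 1, x ∈ U S 0 → α 1 - α 0 ∈ R1 x) :
    ob η α ∈ Gm S 0 Finset.univ := mem_Gm_zero.2 fun x hx =>
  pg_mem (hη 1 2 x (mem_UI_univ.1 hx 1) (mem_UI_univ.1 hx 2))
    (h x (mem_UI_univ.1 hx 1) (mem_UI_univ.1 hx 0))

theorem lifts_iff (hM : M ∈ On S.P) (h : Conn S M α) (hη : Coc S η) :
    Lifts S η M ↔ ob η α ∈ Cob S 0 := by
  constructor
  · rintro ⟨r, hr⟩
    have key : ∀ a b, r a - r b + pg (η a - η b) (α a) ∈ Gm S 0 {a, b} := fun a b =>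
      mem_Gm_zero.2 fun x hx => ((op_iff hM h (mem_UI_two.1 hx).1).1
        (hr a b x (mem_UI_two.1 hx).1 (mem_UI_two.1 hx).2)).2
    convert sub_mem (add_mem (cob01 (key 0 1)) (cob12 (key 1 2))) (cob02 (key 0 2)) using 1
    simp only [ob, map_sub, LinearMap.sub_apply]
    ring
  · intro h1
    obtain ⟨p, hp, q, hq, c, hc, e⟩ := mem_cob.1 h1
    simp only [ob, map_sub, LinearMap.sub_apply] at e
    let r : Fin 3 → F := ![-p - pg (η 0 - η 1) (α 0), 0, q + pg (η 1 - η 2) (α 1)]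
    have key : ∀ a b, r a - r b + pg (η a - η b) (α a) ∈ Gm S 0 {a, b} → ∀ x ∈ U S a, x ∈ U S b →
        Op (oR x) (nS M x) (η a - η b) (r a - r b) := fun a b h2 x ha hb =>
      (op_iff hM h ha).2 ⟨hη a b x ha hb, mem_Gm_zero.1 h2 x (mem_UI_two.2 ⟨ha, hb⟩)⟩
    have k0 := fun a => key a a (by simp)
    have k1 := key 0 1 (by simpa [r] using hp)
    have k2 := key 1 2 (by
      convert neg_mem hq using 1
      change 0 - (q + pg (η 1 - η 2) (α 1)) + _ = _
      ring)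
    have k3 := key 0 2 (by
      convert neg_mem hc using 1
      change -p - pg (η 0 - η 1) (α 0) - (q + pg (η 1 - η 2) (α 1)) + _ = _
      simp only [map_sub, LinearMap.sub_apply]
      linear_combination -e)
    have k4 : ∀ a b, (∀ x ∈ U S a, x ∈ U S b → Op (oR x) (nS M x) (η a - η b) (r a - r b)) →
        ∀ x ∈ U S b, x ∈ U S a → Op (oR x) (nS M x) (η b - η a) (r b - r a) :=
      fun a b h2 x hb ha => by simpa only [neg_sub] using (h2 x ha hb).neg
    refine ⟨r, fun a b => ?_⟩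
    fin_cases a <;> fin_cases b
    exacts [k0 0, k1, k3, k4 0 1 k1, k0 1, k2, k4 0 2 k3, k4 1 2 k2, k0 2]

theorem RV.add_smul {D' : Derivation ℂ F F} (h : RV x D) (h' : RV x D') (c : ℂ) :
    RV x (D + algebraMap ℂ F c • D') := fun f hf =>
  add_mem (h f hf) (mul_mem ((lp x).O.algebraMap_mem c) (h' f hf))

theorem h2Stmt : H2Stmt := by
  intro F _ _ Γ S B hΓ M hM ⟨η, hη, h0⟩ D r h
  obtain ⟨α, hα⟩ := exists_conn hM
  obtain ⟨tr, -, t1, t2⟩ := exists_tr (S := S) hΓ
  have hob := ob_mem (α := α) hη fun x h1 h2 => conn_sub hM hα h1 h2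
  have h1 : tr (ob η α) ≠ 0 := fun h1 => h0 ((lifts_iff hM hα hη).2 (t2 _ hob h1))
  obtain ⟨D₁, D₂, D₃, d1, d2, d3, rfl⟩ := h2_tangent (S := S) (D := D) hΓ B
    fun x hx => (h x (mem_UI_univ.1 hx)).1
  have hs : r + pg (D₃ - D₁ - D₂) (α 0) - pg D₂ (α 1 - α 0) ∈ Gm S 0 Finset.univ :=
    mem_Gm_zero.2 fun x hx => by
      have h2 := mem_UI_univ.1 hx
      exact sub_mem ((op_iff hM hα (h2 0)).1 (h x h2)).2
        (pg_mem (d2 x (mem_UI_two.2 ⟨h2 1, h2 2⟩)) (conn_sub hM hα (h2 1) (h2 0)))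
  obtain ⟨c, hc⟩ : ∃ c : ℂ, r + pg (D₃ - D₁ - D₂) (α 0) - pg D₂ (α 1 - α 0) - c • ob η α ∈
      Cob S 0 := ⟨_, t2 _ (sub_mem hs (smul_mem _ _ hob)) (by
        rw [map_sub, map_smul, smul_eq_mul, div_mul_cancel₀ _ h1, sub_self])⟩
  obtain ⟨p, hp, q, hq, u, hu, e⟩ := mem_cob.1 hc
  have key : ∀ (a b : Fin 3) (E : Derivation ℂ F F) (g : F), Fld S {a, b} E → g ∈ Gm S 0 {a, b} →
      ∀ x, x ∈ U S a → x ∈ U S b → Op (oR x) (nS M x) (E + algebraMap ℂ F c • (η a - η b))
        (g - pg (E + algebraMap ℂ F c • (η a - η b)) (α a)) := fun a b E g hE hg x ha hb =>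
    (op_iff hM hα ha).2 ⟨RV.add_smul (hE x (mem_UI_two.2 ⟨ha, hb⟩)) (hη a b x ha hb) c, by
      rw [sub_add_cancel]
      exact mem_Gm_zero.1 hg x (mem_UI_two.2 ⟨ha, hb⟩)⟩
  refine ⟨_, _, _, _, _, _, key 0 1 D₁ p d1 hp, key 1 2 D₂ q d2 hq, key 0 2 D₃ u d3 hu, ?_, ?_⟩
  · simp only [smul_sub]
    abel
  · simp only [ob, map_sub, map_add, map_smul, LinearMap.sub_apply, LinearMap.add_apply,
      LinearMap.smul_apply, smul_eq_mul, Algebra.smul_def c] at e ⊢
    linear_combination e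

theorem mvStmt : MvStmt := mv_of_h2 h2Stmt

end Crest.Agent.X262.Be94
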