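import Crest.Agent.X262.Be94.Cnn

/-!
# Row 262, G4 / TR (helper94), part 4: the pairing `H¹(T) × H¹(Ω¹) → ℂ` has no kernel on the right

* `Cf S ζ c`  : the covector `c` represents the one-form `ζ`;
* `exists_cf`, `exists_form` : regular forms and regular covectors;
* `inj`       : a finite family of first order deformations detects the class of a cocycle of forms.
-/

set_option autoImplicit false
set_option linter.unusedSectionVars false

open MvPolynomial Submodule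
open scoped KaehlerDifferential

noncomputable section

namespace Crest.Agent.X262.Be94

open Crest.Agent.X277 Crest.Agent.X277.Lef Crest.Agent.X277.AN.G1 Crest.Agent.X277.BD
open Crest.Agent.X277.BD.Br (On oP kP At at_y)
open Crest.Agent.X262.Top (Hyp)
open Crest.Agent.X262.Mv99

variable {F : Type} [Field F] [Algebra ℂ F] {Γ : MvPolynomial (Fin 4) ℂ} {S : Hyp 3 Γ F}
  {I : Finset (Fin 3)} {ζ ζ' : Ω[F⁄ℂ]} {c c' : Fin 4 → F}

local notation "dd" => KaehlerDifferential.D ℂ F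

variable (S) in
/-- `c` represents `ζ` -/
def Cf (ζ : Ω[F⁄ℂ]) (c : Fin 4 → F) : Prop := ∀ D b, Rep S D b → pg D ζ = c ⬝ᵥ b

theorem Cf.sub (h : Cf S ζ c) (h' : Cf S ζ' c') : Cf S (ζ - ζ') (c - c') := fun D b hb => by
  rw [map_sub, h D b hb, h' D b hb, sub_dotProduct]

theorem Cf.sub_pd (hΓ : Qt Γ) (h : Cf S ζ c) (g : F) : Cf S ζ (c - g • pd S) := fun D b hb => by
  rw [h D b hb, sub_dotProduct, smul_dotProduct, dotProduct_comm (pd S), hb.tan hΓ, smul_zero,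
    sub_zero]

theorem Cf.y (h : Cf S ζ c) : c ⬝ᵥ S.y = 0 := by
  have := h 0 _ (rep_y 1)
  rwa [one_smul, map_zero, LinearMap.zero_apply, eq_comm] at this

theorem Cf.uniq (h : Cf S ζ c) (h' : Cf S ζ' c) : ζ = ζ' :=
  sub_eq_zero.1 (eq_zero_of_pg fun D => by
    rw [h.sub h' D _ (rep_self D), sub_self, zero_dotProduct])

theorem tan_single {w : Fin 4 → F} (hw : w ⬝ᵥ pd S = 1) (i : Fin 4) :
    (Pi.single i 1 - pd S i • w) ⬝ᵥ pd S = 0 := by
  rw [sub_dotProduct, smul_dotProduct, hw, single_dotProduct, one_mul, smul_eq_mul, mul_one,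
    sub_self]

theorem Cf.zero (hΓ : Qt Γ) (B : Module.Basis (Fin 2) F Ω[F⁄ℂ]) (h : Cf S 0 c) {w : Fin 4 → F}
    (hw : w ⬝ᵥ pd S = 1) : c = (c ⬝ᵥ w) • pd S := funext fun i => by
  obtain ⟨D, hD⟩ := exists_rep hΓ B (tan_single hw i)
  have := h D _ hD
  rw [map_zero, dotProduct_sub, dotProduct_smul, dotProduct_single, mul_one, smul_eq_mul] at this
  rw [Pi.smul_apply, smul_eq_mul]
  linear_combination -this

theorem exists_cf (hΓ : Qt Γ) (B : Module.Basis (Fin 2) F Ω[F⁄ℂ]) (hI : I.Nonempty)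
    (h : ∀ x ∈ UI S I, ζ ∈ R1 x) : ∃ c, Cf S ζ c ∧ ∀ i, c i ∈ Gm S (-1) I := by
  obtain ⟨a, ha⟩ := hI
  obtain ⟨w, hw, hw1⟩ := exists_w (S := S) hΓ a
  choose E hE using fun i => exists_rep hΓ B (tan_single hw1 i)
  have h0 := S.y_ne a.castSucc
  refine ⟨fun i => pg (E i) ζ, fun D b hb => ?_, fun i => ?_⟩
  · have h1 : ∑ i, b i • (Pi.single i 1 - pd S i • w : Fin 4 → F) = b := by
      simp only [smul_sub, Finset.sum_sub_distrib, smul_smul, ← Finset.sum_smul]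
      rw [show ∑ i, b i * pd S i = 0 from hb.tan hΓ, zero_smul, sub_zero]
      exact (pi_eq_sum_univ' b).symm
    rw [hb.uniq (h1 ▸ Rep.sum Finset.univ fun i => (hE i).smul (b i)), map_sum,
      LinearMap.sum_apply, dotProduct_comm]
    simp only [map_smul, LinearMap.smul_apply, smul_eq_mul, dotProduct]
  · have h1 : Fld S I (S.y a.castSucc • E i) := ((hE i).smul _).fld ⟨a, ha⟩ fun j => by
      refine gm_mul (gm_y _) (sub_mem ?_ (gm_mul (pd_mem hΓ ⟨a, ha⟩ i)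
        (GmM.mono (Finset.singleton_subset_iff.2 ha) (hw j)) rfl)) (add_zero _)
      rw [Pi.single_apply]
      split_ifs
      exacts [gm_unit ⟨a, ha⟩, zero_mem _]
    have h2 := gm_div (e := -1) ha (mem_Gm_zero.2 fun x hx => pg_mem (h1 x hx) (h x hx)) rfl
    rwa [map_smul, LinearMap.smul_apply, smul_eq_mul, mul_div_cancel_left₀ _ h0] at h2

theorem exists_form {a : Fin 3} (hc : ∀ i, c i ∈ Gm S (-1) {a}) (h0 : c ⬝ᵥ S.y = 0) :
    ∃ ρ, Cf S ρ c ∧ ∀ x ∈ U S a, ρ ∈ R1 x := by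
  refine ⟨∑ i, (c i * S.y a.castSucc) • dd (S.y i / S.y a.castSucc), fun D b hb => ?_,
    fun x hx => sum_mem fun i _ => r1_mem (S := S)
      (mem_Gm_zero.1 (gm_mul (hc i) (gm_y _) rfl) x (mem_UI_one.2 hx)) (y_mem (P := S.P) hx i)⟩
  have h1 := S.y_ne a.castSucc
  have h2 : ∀ i : Fin 4, pg D ((c i * S.y a.castSucc) • dd (S.y i / S.y a.castSucc)) =
      c i * b i - b a.castSucc / S.y a.castSucc * (c i * S.y i) := fun i => by
    rw [map_smul, pg_D, hb.div, smul_eq_mul]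
    field_simp
  rw [map_sum, Finset.sum_congr rfl fun i _ => h2 i, Finset.sum_sub_distrib, ← Finset.mul_sum,
    show ∑ i : Fin 4, c i * S.y i = 0 from h0, mul_zero, sub_zero]
  rfl

/-- the deformations which are dual to the quartic forms -/
theorem exists_kap (hΓ : Qt Γ) (B : Module.Basis (Fin 2) F Ω[F⁄ℂ]) {m : Fin 4 → ℤ}
    (hm : m ∈ Ex 4 ∅) : ∃ (η : Fin 3 → Derivation ℂ F F) (v₁ v₂ : Fin 4 → F), Coc S η ∧
      Rep S (η 1 - η 2) (v₁ - v₂) ∧ (∀ i, v₁ i ∈ Gm S 1 {1}) ∧ (∀ i, v₂ i ∈ Gm S 1 {2}) ∧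
      v₂ ⬝ᵥ pd S = mon S.y m := by
  choose w hw hw1 using exists_w (S := S) hΓ
  have hv : ∀ a i, (mon S.y m • w a) i ∈ Gm S 1 {a} := fun a i =>
    gm_mul (gm_mon (by simp) hm) (hw a i) rfl
  have hd : ∀ a, (mon S.y m • w a) ⬝ᵥ pd S = mon S.y m := fun a => by
    rw [smul_dotProduct, hw1, smul_eq_mul, mul_one]
  choose η hη using fun a => exists_rep (S := S) (b := mon S.y m • w a - mon S.y m • w 2) hΓ B
    (by rw [sub_dotProduct, hd, hd, sub_self])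
  have h1 : ∀ a b, Rep S (η a - η b) (mon S.y m • w a - mon S.y m • w b) := fun a b => by
    simpa only [sub_sub_sub_cancel_right] using (hη a).sub (hη b)
  have h2 : ∀ a b, Fld S {a, b} (η a - η b) := fun a b =>
    (h1 a b).fld (by simp) fun i => sub_mem (gm_left (hv a i)) (gm_right (hv b i))
  exact ⟨η, _, _, coc_of (h2 0 1) (h2 1 2) (h2 0 2), h1 1 2, hv 1, hv 2, hd 2⟩

/-- a finite family of deformations which detects the classes of cocycles of forms -/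
theorem inj (hΓ : Qt Γ) (B : Module.Basis (Fin 2) F Ω[F⁄ℂ]) :
    ∃ (J : Type) (_ : Finite J) (κ : J → Fin 3 → Derivation ℂ F F), (∀ j, Coc S (κ j)) ∧
      ∀ ω : Fin 3 → Ω[F⁄ℂ], (∀ a b, ∀ x ∈ U S a, x ∈ U S b → ω a - ω b ∈ R1 x) →
        (∀ j, ob (κ j) ω ∈ Cob S 0) → ∃ ω₀, ∀ a, ∀ x ∈ U S a, ω a - ω₀ ∈ R1 x := by
  obtain ⟨θ, p, q, r, hθ, t1, hp, hq, hr, t2⟩ := exists_theta (S := S) hΓ B
  choose κ v₁ v₂ hκ k1 k2 k3 k4 using fun m : Ex 4 ∅ => exists_kap (S := S) hΓ B m.2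
  have := finite_ex.to_subtype
  refine ⟨Option (Ex 4 ∅), inferInstance, fun j => j.elim θ κ, fun j => j.rec hθ hκ,
    fun ω hω h => ?_⟩
  have h1 : ∀ a b, ∃ c, Cf S (ω a - ω b) c ∧ ∀ i, c i ∈ Gm S (-1) {a, b} := fun a b =>
    exists_cf hΓ B (by simp) fun x hx => hω a b x (mem_UI_two.1 hx).1 (mem_UI_two.1 hx).2
  obtain ⟨c₁, a1, b1⟩ := h1 0 1
  obtain ⟨c₂, a2, b2⟩ := h1 1 2
  obtain ⟨c₃, a3, b3⟩ := h1 0 2
  obtain ⟨w, hw, hw1⟩ := exists_w (S := S) hΓ 0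
  have h2 : Cf S 0 (c₃ - c₁ - c₂) := by
    simpa only [sub_sub_sub_cancel_left, sub_sub_sub_cancel_right, sub_self] using
      (a3.sub a1).sub a2
  obtain ⟨g, hg, e⟩ : ∃ g ∈ Gm S (-4) Finset.univ, c₃ - c₁ - c₂ = g • pd S :=
    ⟨_, gm_dot (fun i => sub_mem (sub_mem (gm_univ (b3 i)) (gm_univ (b1 i))) (gm_univ (b2 i)))
      (fun i => gm_univ (hw i)) rfl, h2.zero hΓ B hw1⟩
  have hob : ∀ {η : Fin 3 → Derivation ℂ F F} {c b : Fin 4 → F}, Cf S (ω 0 - ω 1) c →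
      Rep S (η 1 - η 2) b → ob η ω = -(c ⬝ᵥ b) := fun hc hb => by
    rw [ob, ← neg_sub (ω 0), map_neg, hc _ _ hb]
  obtain ⟨g₁, f1, g₂, f2, g₃, f3, rfl⟩ := mem_cob.1 (perfect hΓ hg fun m hm => by
    have h3 : ob (κ ⟨m, hm⟩) ω ∈ Cob S 0 := h (some ⟨m, hm⟩)
    have h4 := congrArg (· ⬝ᵥ v₂ ⟨m, hm⟩) e
    simp only [sub_dotProduct, smul_dotProduct, dotProduct_comm (pd S), k4, smul_eq_mul] at h4
    rw [hob a1 (k1 _), dotProduct_sub] at h3
    convert sub_mem (sub_mem (sub_mem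
      (cob02 (gm_dot (e := 0) b3 (fun i => gm_right (k3 ⟨m, hm⟩ i)) rfl))
      (cob12 (gm_dot (e := 0) b2 (fun i => gm_right (k3 ⟨m, hm⟩ i)) rfl)))
      (cob01 (gm_dot (e := 0) b1 (fun i => gm_right (k2 ⟨m, hm⟩ i)) rfl))) h3 using 1
    linear_combination -h4)
  have e1 : c₁ - g₁ • pd S + (c₂ - g₂ • pd S) = c₃ - g₃ • pd S := by
    rw [sub_sub, sub_eq_iff_eq_add] at e
    rw [e, sub_smul, sub_smul]
    abel
  have hc : ∀ {a b : Fin 3} {c : Fin 4 → F} {g : F}, (∀ i, c i ∈ Gm S (-1) {a, b}) →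
      g ∈ Gm S (-4) {a, b} → ∀ i, (c - g • pd S) i ∈ Gm S (-1) {a, b} := fun hc hg i =>
    sub_mem (hc i) (gm_mul hg (pd_mem hΓ (by simp) i) rfl)
  choose u hu u1 u2 using fun i => Mv99.h1 hΓ (-1) (hc b1 f1 i) (hc b2 f2 i)
    ((congrFun e1 i).symm ▸ hc b3 f3 i : (c₁ - g₁ • pd S + (c₂ - g₂ • pd S)) i ∈ _)
  have a1' := a1.sub_pd hΓ g₁
  have a2' := a2.sub_pd hΓ g₂
  rw [show c₁ - g₁ • pd S = (fun i => u i 0) - fun i => u i 1 from funext u1] at a1'
  rw [show c₂ - g₂ • pd S = (fun i => u i 1) - fun i => u i 2 from funext u2] at a2'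
  have s1 := a1'.y
  have s2 := a2'.y
  rw [sub_dotProduct, sub_eq_zero] at s1 s2
  have hs : ∀ a, (fun i => u i a) ⬝ᵥ S.y = (fun i => u i 0) ⬝ᵥ S.y := fun a => by
    fin_cases a
    exacts [rfl, s1.symm, (s1.trans s2).symm]
  obtain ⟨t, ht⟩ := h0_zero (f := (fun i => u i 0) ⬝ᵥ S.y) hΓ fun a =>
    hs a ▸ gm_dot (fun i => hu i a) (fun i => gm_y i) rfl
  have h3 : t = 0 := by
    by_contra h3
    refine eH_notMem (S := S) hΓ ((smul_mem_iff _ h3).1 ?_)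
    have h4 : ob θ ω ∈ Cob S 0 := h none
    have h5 := congrArg ((fun i => u i 0) ⬝ᵥ ·) t2
    simp only [dotProduct_sub, dotProduct_smul, ht, smul_eq_mul] at h5
    rw [hob a1' t1, sub_dotProduct] at h4
    convert add_mem (sub_mem (sub_mem
      (cob02 (gm_dot (e := 0) (fun i => gm_left (hu i 0)) hr rfl))
      (cob01 (gm_dot (e := 0) (fun i => gm_left (hu i 0)) hp rfl)))
      (cob12 (gm_dot (e := 0) (fun i => gm_left (hu i 1)) hq rfl))) h4 using 1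
    rw [Algebra.smul_def]
    linear_combination h5
  choose ρ r1 r2 using fun a => exists_form (S := S) (fun i => hu i a)
    (by rw [hs, ht, h3, map_zero])
  have e2 := a1'.uniq ((r1 0).sub (r1 1))
  have e3 := a2'.uniq ((r1 1).sub (r1 2))
  refine ⟨ω 0 - ρ 0, fun a x hx => ?_⟩
  convert r2 a x hx using 1
  fin_cases a
  · exact sub_sub_cancel _ _
  · change ω 1 - _ = ρ 1
    linear_combination (norm := abel) -e2
  · change ω 2 - _ = ρ 2
    linear_combination (norm := abel) -e2 - e3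

end Crest.Agent.X262.Be94
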