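import Crest.Agent.X262.Mv99.Mon

/-!
# Row 262, G4 / TR (helper94), part 1: the trace on `H²(O)` of the quartic

* `gm_mul`, `gm_y`, `gm_inv`, `gm_aeval` : calculus of the sections `Gm S n I` of `O(n)`;
* `Cob S n`, `exists_tr`, `perfect` : coboundaries, the trace, duality with the quartic forms;
* `pd S`, `euler`, `exists_w` : the partial derivatives generate the unit ideal on every chart.
-/

set_option autoImplicit false
set_option linter.unusedSectionVars false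

open MvPolynomial Submodule

noncomputable section

namespace Crest.Agent.X262.Be94

open Crest.Agent.X277 Crest.Agent.X277.Lef Crest.Agent.X277.AN.G1 Crest.Agent.X277.BD
open Crest.Agent.X277.BD.Br (On oP kP At at_y)
open Crest.Agent.X262.Top (Hyp)
open Crest.Agent.X262.Mv99

variable {F : Type} [Field F] [Algebra ℂ F] {Γ : MvPolynomial (Fin 4) ℂ} {S : Hyp 3 Γ F}
  {n n' : ℤ} {I : Finset (Fin 3)} {f g : F}

theorem gm_mul {e : ℤ} (hf : f ∈ Gm S n I) (hg : g ∈ Gm S n' I) (he : n + n' = e) :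
    f * g ∈ Gm S e I := fun x hx => by
  rw [← he, add_smul]
  exact mul_mem_nS (hf x hx) (hg x hx)

theorem gm_y (i : Fin 4) : S.y i ∈ Gm S 1 I := fun x _ V _ => by
  rw [one_smul]
  exact Br.y_mem_Sec (P := S.P) i V

theorem gm_zpow {a : Fin 3} (ha : a ∈ I) (n : ℤ) : S.y a.castSucc ^ n ∈ Gm S n I :=
  wd_le_gm n ⟨a, ha⟩ (zpow_mem_Wd ha n)

theorem gm_div {a : Fin 3} (ha : a ∈ I) {e : ℤ} (hf : f ∈ Gm S n I) (he : n - 1 = e) :
    f / S.y a.castSucc ∈ Gm S e I := by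
  rw [div_eq_mul_inv, ← zpow_neg_one]
  exact gm_mul hf (gm_zpow ha (-1)) he

theorem gm_aeval (hI : I.Nonempty) {k : ℕ} {q : MvPolynomial (Fin 4) ℂ} (hq : q.IsHomogeneous k) :
    aeval S.y q ∈ Gm S k I := wd_le_gm k hI (aeval_mem_Wd hq I)

theorem gm_mon (hI : I.Nonempty) {m : Fin 4 → ℤ} (hm : m ∈ Ex n ∅) : mon S.y m ∈ Gm S n I :=
  wd_le_gm n hI (mon_mem_Wd (Ex.mono (Finset.empty_subset I) hm))

theorem gm_unit (hI : I.Nonempty) : (1 : F) ∈ Gm S 0 I := wd_le_gm 0 hI (one_mem_Wd I)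

theorem gm_dot {e : ℤ} {a b : Fin 4 → F} (ha : ∀ i, a i ∈ Gm S n I) (hb : ∀ i, b i ∈ Gm S n' I)
    (he : n + n' = e) : a ⬝ᵥ b ∈ Gm S e I := sum_mem fun i _ => gm_mul (ha i) (hb i) he

theorem gm_left {a b : Fin 3} (h : f ∈ Gm S n {a}) : f ∈ Gm S n {a, b} := GmM.mono (by simp) h

theorem gm_right {a b : Fin 3} (h : f ∈ Gm S n {b}) : f ∈ Gm S n {a, b} := GmM.mono (by simp) h

theorem gm_univ (h : f ∈ Gm S n I) : f ∈ Gm S n Finset.univ := GmM.mono (Finset.subset_univ I) h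

variable (S) in
/-- coboundaries -/
def Cob (n : ℤ) : Submodule ℂ F := Gm S n {0, 1} ⊔ Gm S n {1, 2} ⊔ Gm S n {0, 2}

theorem cob01 (h : f ∈ Gm S n {0, 1}) : f ∈ Cob S n := mem_sup_left (mem_sup_left h)

theorem cob12 (h : f ∈ Gm S n {1, 2}) : f ∈ Cob S n := mem_sup_left (mem_sup_right h)

theorem cob02 (h : f ∈ Gm S n {0, 2}) : f ∈ Cob S n := mem_sup_right h

theorem mem_cob : f ∈ Cob S n ↔ ∃ a ∈ Gm S n {0, 1}, ∃ b ∈ Gm S n {1, 2}, ∃ c ∈ Gm S n {0, 2},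
    f = c - a - b := by
  refine ⟨fun h => ?_, ?_⟩
  · obtain ⟨x, hx, c, hc, rfl⟩ := mem_sup.1 h
    obtain ⟨a, ha, b, hb, rfl⟩ := mem_sup.1 hx
    exact ⟨-a, neg_mem ha, -b, neg_mem hb, c, hc, by ring⟩
  · rintro ⟨a, ha, b, hb, c, hc, rfl⟩
    exact sub_mem (sub_mem (cob02 hc) (cob01 ha)) (cob12 hb)

theorem cob_mul {m : Fin 4 → ℤ} {e : ℤ} (hf : f ∈ Cob S n) (hm : m ∈ Ex n' ∅) (he : n + n' = e) :
    f * mon S.y m ∈ Cob S e := by
  obtain ⟨a, ha, b, hb, c, hc, rfl⟩ := mem_cob.1 hf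
  exact mem_cob.2 ⟨_, gm_mul ha (gm_mon (by simp) hm) he, _, gm_mul hb (gm_mon (by simp) hm) he,
    _, gm_mul hc (gm_mon (by simp) hm) he, by ring⟩

theorem mon_mem_cob {m : Fin 4 → ℤ} (hm : m ∈ Ex n Finset.univ)
    (h : 0 ≤ m 0 ∨ 0 ≤ m 1 ∨ 0 ≤ m 2) : mon S.y m ∈ Cob S n := by
  rcases h with h | h | h
  · refine cob12 (wd_le_gm n (by simp) (mon_mem_Wd ⟨hm.1, hm.2.1, fun a ha => ?_⟩))
    fin_cases a <;> simp_all
  · refine cob02 (wd_le_gm n (by simp) (mon_mem_Wd ⟨hm.1, hm.2.1, fun a ha => ?_⟩))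
    fin_cases a <;> simp_all
  · refine cob01 (wd_le_gm n (by simp) (mon_mem_Wd ⟨hm.1, hm.2.1, fun a ha => ?_⟩))
    fin_cases a <;> simp_all

/-- the exponent of `eH` -/
def e₀ : Fin 4 → ℤ := ![-1, -1, -1, 3]

theorem e₀_mem : e₀ ∈ Ex3 0 Finset.univ :=
  ⟨⟨by simp [e₀, Fin.sum_univ_four], by simp [e₀], by simp⟩, by simp [e₀]⟩

theorem mon_mem_cob0 {m : Fin 4 → ℤ} (hm : m ∈ Ex3 0 Finset.univ) (h : m ≠ e₀) :
    mon S.y m ∈ Cob S 0 := by
  refine mon_mem_cob hm.1 (by_contra fun hc => h (funext fun i => ?_))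
  have h1 := hm.1.1
  have h2 := hm.2
  rw [Fin.sum_univ_four] at h1
  fin_cases i <;> simp [e₀] <;> omega

theorem eH_notMem (hΓ : Qt Γ) : eH S ∉ Cob S 0 := by
  have key : ∀ a b c : Fin 3, c ∉ ({a, b} : Finset (Fin 3)) →
      Gm S 0 {a, b} ≤ span ℂ (mon S.y '' (Ex3 0 Finset.univ \ {e₀})) := fun a b c hc => by
    rw [gm_two hΓ]
    refine span_mono (Set.image_mono fun m hm => ⟨Ex3.mono (Finset.subset_univ _) hm, ?_⟩)
    rintro rfl
    have := hm.1.2.2 c hc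
    fin_cases c <;> simp [e₀] at this
  exact fun hc => (indepS (S := S) hΓ 0).notMem_span e₀_mem
    (sup_le (sup_le (key 0 1 2 (by decide)) (key 1 2 0 (by decide))) (key 0 2 1 (by decide)) hc)

/-- the trace -/
theorem exists_tr (hΓ : Qt Γ) : ∃ tr : F →ₗ[ℂ] ℂ, tr (eH S) = 1 ∧ (∀ f ∈ Cob S 0, tr f = 0) ∧
    ∀ f ∈ Gm S 0 Finset.univ, tr f = 0 → f ∈ Cob S 0 := by
  obtain ⟨φ, h4, h5⟩ := exists_dual_map_eq_bot_of_notMem (eH_notMem (S := S) hΓ) inferInstance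
  have h6 : ∀ f ∈ Cob S 0, φ f = 0 := fun f hf => (mem_bot ℂ).1 (h5 ▸ mem_map_of_mem hf)
  refine ⟨(φ (eH S))⁻¹ • φ, by simp [h4], fun f hf => by simp [h6 f hf], fun f hf h0 => ?_⟩
  obtain ⟨a, ha, b, hb, c, hc, t, rfl⟩ := h2_zero hΓ hf
  have h7 := mem_cob.2 ⟨a, ha, b, hb, c, hc, rfl⟩
  rw [map_add, map_smul, LinearMap.smul_apply, h6 _ h7, LinearMap.smul_apply, smul_eq_mul,
    smul_eq_mul, smul_eq_mul, inv_mul_cancel₀ h4, mul_zero, zero_add, mul_one] at h0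
  rwa [h0, zero_smul, add_zero]

/-- duality between `H²(O(-4))` and the quartic forms -/
theorem perfect (hΓ : Qt Γ) (hg : g ∈ Gm S (-4) Finset.univ)
    (h0 : ∀ m ∈ Ex 4 ∅, g * mon S.y m ∈ Cob S 0) : g ∈ Cob S (-4) := by
  classical
  obtain ⟨tr, h2, h1, -⟩ := exists_tr (S := S) hΓ
  have h3 : Gm S (-4) Finset.univ ≤ Cob S (-4) ⊔
      span ℂ (mon S.y '' {m | m ∈ Ex3 (-4) Finset.univ ∧ m 0 < 0 ∧ m 1 < 0 ∧ m 2 < 0}) := by
    rw [gm_eq_sp hΓ _ Finset.univ_nonempty]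
    refine span_le.2 ?_
    rintro _ ⟨m, hm, rfl⟩
    by_cases he : m 0 < 0 ∧ m 1 < 0 ∧ m 2 < 0
    · exact mem_sup_right (subset_span ⟨m, ⟨hm, he⟩, rfl⟩)
    · exact mem_sup_left (mon_mem_cob hm.1 (by omega))
  obtain ⟨a, ha, b, hb, rfl⟩ := mem_sup.1 (h3 hg)
  obtain ⟨l, hl, rfl⟩ := (Finsupp.mem_span_image_iff_linearCombination ℂ).1 hb
  by_cases hl0 : l = 0
  · rwa [hl0, map_zero, add_zero]
  obtain ⟨m, hm, hmax⟩ := l.support.exists_max_image (fun m => m 3)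
    (Finsupp.support_nonempty_iff.2 hl0)
  obtain ⟨⟨⟨a1, a2, -⟩, a3⟩, a4, a5, a6⟩ := hl hm
  rw [Fin.sum_univ_four] at a1
  have h5 : e₀ - m ∈ Ex 4 ∅ := by
    refine ⟨?_, ?_, fun i _ => ?_⟩
    · simp only [Fin.sum_univ_four, Pi.sub_apply]
      change -1 - m 0 + (-1 - m 1) + (-1 - m 2) + (3 - m 3) = 4
      omega
    · change 0 ≤ 3 - m 3
      omega
    · fin_cases i
      · change 0 ≤ -1 - m 0
        omega
      · change 0 ≤ -1 - m 1
        omega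
      · change 0 ≤ -1 - m 2
        omega
  have h6 := sub_mem (h0 _ h5) (cob_mul ha h5 (by norm_num))
  rw [add_mul, add_sub_cancel_left] at h6
  have h7 := h1 _ h6
  have h8 : ∀ m' ∈ l.support, m' ≠ m → tr (l m' • mon S.y m' * mon S.y (e₀ - m)) = 0 := by
    intro m' hm' hne
    obtain ⟨⟨b1, b2⟩, -⟩ := hl hm'
    have b3 : m' 3 ≤ m 3 := hmax m' hm'
    have b4 : m' + (e₀ - m) ∈ Ex3 0 Finset.univ := by
      refine ⟨Ex.add b1 (Ex.mono (Finset.empty_subset _) h5), ?_⟩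
      change m' 3 + (3 - m 3) ≤ 3
      omega
    rw [smul_mul_assoc, ← mon_add S.y_ne, map_smul, h1 _ (mon_mem_cob0 b4 fun he => hne ?_),
      smul_zero]
    rw [← add_sub_assoc, sub_eq_iff_eq_add, add_comm] at he
    exact add_left_cancel he
  rw [Finsupp.linearCombination_apply, Finsupp.sum, Finset.sum_mul, map_sum,
    Finset.sum_eq_single m h8 (fun h => (h hm).elim), smul_mul_assoc, ← mon_add S.y_ne,
    add_sub_cancel, map_smul, show mon S.y e₀ = eH S from rfl, h2, smul_eq_mul, mul_one] at h7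
  exact (Finsupp.mem_support_iff.1 hm h7).elim

theorem finite_ex : (Ex 4 ∅).Finite := by
  refine (Set.Finite.pi' fun _ : Fin 4 => Set.finite_Icc (0 : ℤ) 4).subset fun m hm i => ?_
  have h0 := hm.2.2 0 (by simp)
  have h1 := hm.2.2 1 (by simp)
  have h2 := hm.2.2 2 (by simp)
  have h3 := hm.2.1
  have h4 := hm.1
  rw [Fin.sum_univ_four] at h4
  change 0 ≤ m 0 at h0
  change 0 ≤ m 1 at h1
  change 0 ≤ m 2 at h2
  fin_cases i <;> simp <;> omega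

/-- `H⁰(O) = ℂ` -/
theorem h0_zero (hΓ : Qt Γ) (hf : ∀ a, f ∈ Gm S 0 {a}) : ∃ c : ℂ, f = algebraMap ℂ F c := by
  have h3 : Sp S.y 0 ∅ ≤ span ℂ {1} := span_le.2 (by
    rintro _ ⟨m, ⟨⟨h4, h3, h⟩, -⟩, rfl⟩
    have h0 := h 0 (by simp)
    have h1 := h 1 (by simp)
    have h2 := h 2 (by simp)
    rw [Fin.sum_univ_four] at h4
    change 0 ≤ m 0 at h0
    change 0 ≤ m 1 at h1
    change 0 ≤ m 2 at h2
    have h5 : m = 0 := funext fun i => by fin_cases i <;> simp <;> omega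
    rw [h5]
    simp [mon])
  obtain ⟨c, hc⟩ := mem_span_singleton.1 (h3 (h0 hΓ 0 hf))
  exact ⟨c, by rw [← hc, Algebra.algebraMap_eq_smul_one]⟩

variable (S) in
/-- the gradient -/
def pd (i : Fin 4) : F := aeval S.y (pderiv i Γ)

theorem pd_mem (hΓ : Qt Γ) (hI : I.Nonempty) (i : Fin 4) : pd S i ∈ Gm S 3 I :=
  gm_aeval (k := 3) hI hΓ.1.pderiv

theorem euler (hΓ : Qt Γ) : S.y ⬝ᵥ pd S = 0 := by
  have h := congrArg (aeval S.y) hΓ.1.sum_X_mul_pderiv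
  simpa [dotProduct, pd, map_sum, hyp_zero hΓ] using h

theorem pd_ne (hΓ : Qt Γ) : pd S 3 ≠ 0 := fun h => by
  have h1 := (S.ker 3 _ (hΓ.1.pderiv (i := 3))).1 h
  have h2 : pderiv 3 Γ ≠ 0 := fun h0 => by
    have := coeff_pderiv (i := 3) Γ (Finsupp.single 3 3)
    rw [h0, coeff_zero, ← Finsupp.single_add, eq_comm, mul_eq_zero] at this
    exact this.elim hΓ.2.1 (by norm_num)
  have h3 := totalDegree_le_of_dvd_of_isDomain h1 h2
  rw [hΓ.1.totalDegree (ne_zero_of_dvd_ne_zero h2 h1), (hΓ.1.pderiv (i := 3)).totalDegree h2] at h3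
  omega

/-- the partial derivatives generate -/
theorem exists_w (hΓ : Qt Γ) (a : Fin 3) :
    ∃ w : Fin 4 → F, (∀ i, w i ∈ Gm S (-3) {a}) ∧ w ⬝ᵥ pd S = 1 := by
  let N : AddSubgroup F :=
    { carrier := {f | ∃ w : Fin 4 → F, (∀ i, w i ∈ Gm S (-3) {a}) ∧ w ⬝ᵥ pd S = f}
      zero_mem' := ⟨0, fun _ => zero_mem _, zero_dotProduct _⟩
      add_mem' := by
        rintro _ _ ⟨w, h, rfl⟩ ⟨w', h', rfl⟩
        exact ⟨w + w', fun i => add_mem (h i) (h' i), add_dotProduct _ _ _⟩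
      neg_mem' := by
        rintro _ ⟨w, h, rfl⟩
        exact ⟨-w, fun i => neg_mem (h i), neg_dotProduct _ _⟩ }
  have hA : ∀ c ∈ S.P.A a.castSucc, c ∈ Gm S 0 {a} := fun c hc =>
    wd_le_gm 0 (by simp) (A_le_Wd a hc)
  obtain ⟨k, w, h1, h2⟩ := exists_pow_mul_mem (P := S.P) (i := a.castSucc) N (f := (1 : F))
    (by
      rintro c hc _ ⟨w, h, rfl⟩
      exact ⟨c • w, fun i => gm_mul (hA c hc) (h i) (zero_add _), smul_dotProduct _ _ _⟩)
    (one_mem _) fun x hx _ => by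
      have hv : ∀ q : MvPolynomial (Fin 4) ℂ, ev (aeval (fun j => S.y j / S.y a.castSucc) q) x =
          eval (fun j => ev (S.y j / S.y a.castSucc) x) q :=
        fun q => LP.v_aeval (y_mem (P := S.P) hx) q
      obtain ⟨l, hl⟩ := hΓ.2.2 (fun j => ev (S.y j / S.y a.castSucc) x)
        (fun h => by simpa [div_self (S.y_ne _)] using congrFun h a.castSucc)
        (by rw [← hv, aeval_div hΓ.1, hyp_zero hΓ, zero_div]; exact LP.v_zero _)
      refine ⟨_, ?_, hv _ ▸ hl, Pi.single l (S.y a.castSucc ^ (-3 : ℤ)), fun i => ?_, ?_⟩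
      · rw [PModel.A, chart, Algebra.adjoin_range_eq_range_aeval]
        exact ⟨_, rfl⟩
      · by_cases hi : i = l
        · rw [hi, Pi.single_eq_same]
          exact gm_zpow (by simp) _
        · rw [Pi.single_eq_of_ne hi]
          exact zero_mem _
      · rw [single_dotProduct, aeval_div (k := 3) hΓ.1.pderiv, smul_eq_mul, mul_one, pd,
          div_eq_inv_mul, zpow_neg, zpow_ofNat]
  exact ⟨w, h1, by simpa using h2⟩

end Crest.Agent.X262.Be94
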