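import Crest.Agent.X262.Be94.Tr
import Crest.Agent.X277.Jet.Fr

/-!
# Row 262, G4 / TR (helper94), part 2: vector fields on the quartic in homogeneous coordinates

* `Rep S D b` : the vector `b` (tangent to the cone) represents the rational vector field `D`;
* `exists_rep`, `Rep.zero` : existence and uniqueness of the field of a tangent vector;
* `Fld S I D` : `D` is regular on the charts in `I`; `Rep.fld`, `Fld.rep`;
* `split`, `h2_tangent` : `H²(T) = 0`; `exists_theta` : the class of the hyperplane section.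
-/

set_option autoImplicit false
set_option linter.unusedSectionVars false

open MvPolynomial Submodule
open scoped KaehlerDifferential

noncomputable section

namespace Crest.Agent.X262.Be94

open Crest.Agent.X277 Crest.Agent.X277.Lef Crest.Agent.X277.AN.G1 Crest.Agent.X277.BD
open Crest.Agent.X277.BD.Br (On oP kP At at_y)
open Crest.Agent.X262.Top (Hyp)
open Crest.Agent.X262.Mv99

variable {F : Type} [Field F] [Algebra ℂ F] {Γ : MvPolynomial (Fin 4) ℂ} {S : Hyp 3 Γ F}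
  {I : Finset (Fin 3)} {D D' : Derivation ℂ F F} {b b' : Fin 4 → F}

/-- the pairing of vector fields and one-forms -/
def pg : Derivation ℂ F F →ₗ[F] Ω[F⁄ℂ] →ₗ[F] F :=
  (KaehlerDifferential.linearMapEquivDerivation ℂ F).symm.toLinearMap

@[simp] theorem pg_D (D : Derivation ℂ F F) (f : F) : pg D (KaehlerDifferential.D ℂ F f) = D f :=
  D.liftKaehlerDifferential_comp_D f

theorem eq_zero_of_pg {ζ : Ω[F⁄ℂ]} (h : ∀ D : Derivation ℂ F F, pg D ζ = 0) : ζ = 0 :=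
  (Module.forall_dual_apply_eq_zero_iff F ζ).1 fun φ => by
    obtain ⟨D, rfl⟩ := (KaehlerDifferential.linearMapEquivDerivation ℂ F).symm.surjective φ
    exact h D

variable (S) in
/-- `b` represents `D` -/
def Rep (D : Derivation ℂ F F) (b : Fin 4 → F) : Prop := ∃ l : F, ∀ i, D (S.y i) = b i + l * S.y i

theorem rep_self (D : Derivation ℂ F F) : Rep S D fun i => D (S.y i) := ⟨0, fun _ => by simp⟩

theorem rep_y (c : F) : Rep S 0 (c • S.y) := ⟨-c, fun _ => by simp⟩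

theorem Rep.add (h : Rep S D b) (h' : Rep S D' b') : Rep S (D + D') (b + b') := by
  obtain ⟨l, h⟩ := h
  obtain ⟨l', h'⟩ := h'
  exact ⟨l + l', fun i => by rw [Derivation.add_apply, h, h', Pi.add_apply]; ring⟩

theorem Rep.smul (c : F) (h : Rep S D b) : Rep S (c • D) (c • b) := by
  obtain ⟨l, h⟩ := h
  exact ⟨c * l, fun i => by
    rw [Derivation.smul_apply, h, Pi.smul_apply, smul_eq_mul, smul_eq_mul]; ring⟩

theorem Rep.sub (h : Rep S D b) (h' : Rep S D' b') : Rep S (D - D') (b - b') := by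
  obtain ⟨l, h⟩ := h
  obtain ⟨l', h'⟩ := h'
  exact ⟨l - l', fun i => by rw [Derivation.sub_apply, h, h', Pi.sub_apply]; ring⟩

theorem Rep.sum {ι : Type} (s : Finset ι) {E : ι → Derivation ℂ F F} {v : ι → Fin 4 → F}
    (h : ∀ j, Rep S (E j) (v j)) : Rep S (∑ j ∈ s, E j) (∑ j ∈ s, v j) := by
  classical
  induction s using Finset.induction_on with
  | empty => exact ⟨0, fun _ => by simp⟩
  | insert i s hi ih =>
    rw [Finset.sum_insert hi, Finset.sum_insert hi]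
    exact (h i).add ih

theorem Rep.div (h : Rep S D b) (i j : Fin 4) :
    D (S.y i / S.y j) = b i / S.y j - b j / S.y j * (S.y i / S.y j) := by
  obtain ⟨l, h⟩ := h
  have := S.y_ne j
  rw [Derivation.leibniz_div, h, h, smul_eq_mul, smul_eq_mul, smul_eq_mul]
  field_simp
  ring

theorem Rep.tan (hΓ : Qt Γ) (h : Rep S D b) : b ⬝ᵥ pd S = 0 := by
  obtain ⟨l, h⟩ := h
  have h1 := Jet.der_aeval D S.y Γ
  have h2 : b = (fun i => D (S.y i)) - l • S.y := funext fun i => by simp [h]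
  rw [hyp_zero hΓ, map_zero] at h1
  rw [h2, sub_dotProduct, smul_dotProduct, euler hΓ, smul_zero, sub_zero, dotProduct_comm]
  exact h1.symm

theorem der_mem {j : Fin 4} (T : Subring F) (hT : ∀ f ∈ S.P.A j, f ∈ T)
    (h : ∀ i, D (S.y i / S.y j) ∈ T) {f : F} (hf : f ∈ S.P.A j) : D f ∈ T := by
  induction hf using Algebra.adjoin_induction with
  | mem x hx =>
    obtain ⟨i, rfl⟩ := hx
    exact h i
  | algebraMap c => rw [Derivation.map_algebraMap]; exact zero_mem _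
  | add x y _ _ hx hy => rw [map_add]; exact add_mem hx hy
  | mul x y h1 h2 hx hy =>
    rw [Derivation.leibniz]
    exact add_mem (mul_mem (hT _ h1) hy) (mul_mem (hT _ h2) hx)

theorem der_eq_zero (h : ∀ i, D (S.y i / S.y 0) = 0) : D = 0 := by
  have key : ∀ f ∈ chart ℂ S.y 0, D f = 0 := fun f hf => by
    induction hf using Algebra.adjoin_induction with
    | mem x hx =>
      obtain ⟨i, rfl⟩ := hx
      exact h i
    | algebraMap c => exact D.map_algebraMap c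
    | add x y _ _ hx hy => rw [map_add, hx, hy, add_zero]
    | mul x y _ _ hx hy => rw [Derivation.leibniz, hx, hy, smul_zero, smul_zero, add_zero]
  ext f
  obtain ⟨a, ha, c, hc, -, rfl⟩ := S.frac f
  rw [Derivation.leibniz_div, key a ha, key c hc]
  simp

theorem Rep.uniq (h : Rep S D b) (h' : Rep S D' b) : D = D' :=
  sub_eq_zero.1 (der_eq_zero (S := S) fun i => by rw [(h.sub h').div]; simp)

theorem rep_of (hΓ : Qt Γ) (hb : b ⬝ᵥ pd S = 0)
    (h1 : D (S.y 1 / S.y 0) = b 1 / S.y 0 - b 0 / S.y 0 * (S.y 1 / S.y 0))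
    (h2 : D (S.y 2 / S.y 0) = b 2 / S.y 0 - b 0 / S.y 0 * (S.y 2 / S.y 0)) : Rep S D b := by
  have h0 := S.y_ne 0
  have key : ∀ i, D (S.y i / S.y 0) = b i / S.y 0 - b 0 / S.y 0 * (S.y i / S.y 0) →
      D (S.y i) = b i + (D (S.y 0) - b 0) / S.y 0 * S.y i := fun i hi => by
    rw [(rep_self (S := S) D).div] at hi
    field_simp at hi ⊢
    linear_combination hi
  have e0 := key 0 (by simp [div_self h0])
  have e1 := key 1 h1
  have e2 := key 2 h2
  have e3 := (rep_self (S := S) D).tan hΓ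
  have e4 : S.y 0 * pd S 0 + S.y 1 * pd S 1 + S.y 2 * pd S 2 + S.y 3 * pd S 3 = 0 :=
    (Fin.sum_univ_four fun i => S.y i * pd S i).symm.trans (euler (S := S) hΓ)
  refine ⟨(D (S.y 0) - b 0) / S.y 0, fun i => ?_⟩
  generalize (D (S.y 0) - b 0) / S.y 0 = l at e0 e1 e2 ⊢
  fin_cases i
  · exact e0
  · exact e1
  · exact e2
  · refine mul_right_cancel₀ (pd_ne (S := S) hΓ) ?_
    simp only [dotProduct, Fin.sum_univ_four, e0, e1, e2] at hb e3
    change D (S.y 3) * _ = (b 3 + l * S.y 3) * _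
    linear_combination e3 - hb - l * e4

theorem exists_rep (hΓ : Qt Γ) (B : Module.Basis (Fin 2) F Ω[F⁄ℂ]) (hb : b ⬝ᵥ pd S = 0) :
    ∃ D, Rep S D b := by
  let φ : Module.Dual F Ω[F⁄ℂ] →ₗ[F] (Fin 2 → F) := LinearMap.pi fun j =>
    Module.Dual.eval F _ (KaehlerDifferential.D ℂ F (S.y j.castSucc.succ / S.y 0))
  have := Module.Finite.of_basis B
  have hinj : Function.Injective φ := by
    rw [injective_iff_map_eq_zero]
    intro ℓ hℓ
    obtain ⟨D, rfl⟩ := (KaehlerDifferential.linearMapEquivDerivation ℂ F).symm.surjective ℓ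
    have h1 : D (S.y 1 / S.y 0) = 0 := (pg_D D _).symm.trans (congrFun hℓ 0)
    have h2 : D (S.y 2 / S.y 0) = 0 := (pg_D D _).symm.trans (congrFun hℓ 1)
    have h3 : Rep S D 0 := rep_of hΓ (zero_dotProduct _) (by simpa using h1) (by simpa using h2)
    rw [h3.uniq (D' := 0) ⟨0, fun _ => by simp⟩, map_zero]
  obtain ⟨ℓ, hℓ⟩ := (LinearMap.injective_iff_surjective_of_finrank_eq_finrank (by
    rw [Subspace.dual_finrank_eq, Module.finrank_eq_card_basis B, Module.finrank_fin_fun,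
      Fintype.card_fin])).1 hinj
    fun j => b j.castSucc.succ / S.y 0 - b 0 / S.y 0 * (S.y j.castSucc.succ / S.y 0)
  obtain ⟨D, rfl⟩ := (KaehlerDifferential.linearMapEquivDerivation ℂ F).symm.surjective ℓ
  exact ⟨D, rep_of hΓ hb ((pg_D D _).symm.trans (congrFun hℓ 0))
    ((pg_D D _).symm.trans (congrFun hℓ 1))⟩

variable (S) in
/-- regular vector fields -/
def Fld (I : Finset (Fin 3)) (D : Derivation ℂ F F) : Prop := ∀ x ∈ UI S I, RV x D

theorem Rep.fld (hI : I.Nonempty) (h : Rep S D b) (hb : ∀ i, b i ∈ Gm S 1 I) : Fld S I D := by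
  obtain ⟨a, ha⟩ := hI
  intro x hx f hf
  have hxa := hx a ha
  have h1 : ∀ i, b i / S.y a.castSucc ∈ oR x := fun i =>
    mem_Gm_zero.1 (gm_div ha (hb i) rfl) x hx
  have h2 : ∀ g ∈ S.P.A a.castSucc, D g ∈ oR x := fun g hg =>
    der_mem (oR x) (fun _ h => A_le (P := S.P) hxa h) (fun i => by
      rw [h.div]
      exact sub_mem (h1 _) (mul_mem (h1 _) (y_mem (P := S.P) hxa i))) hg
  obtain ⟨u, hu, c, hc, h3, h4⟩ := (mem_lp_iff (P := S.P) hxa).1 hf
  have h5 : D f = (D u - f * D c) / c := by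
    rw [← h4, Derivation.leibniz, eq_div_iff (LP.ne_zero_of_ne h3), smul_eq_mul, smul_eq_mul]
    ring
  rw [h5]
  exact LP.div_mem (sub_mem (h2 u hu) (mul_mem hf (h2 c hc))) h3

theorem Fld.rep (hI : I.Nonempty) (h : Fld S I D) : ∃ b, Rep S D b ∧ ∀ i, b i ∈ Gm S 1 I := by
  obtain ⟨a, ha⟩ := hI
  refine ⟨fun i => S.y a.castSucc * D (S.y i / S.y a.castSucc),
    ⟨D (S.y a.castSucc) / S.y a.castSucc, fun i => ?_⟩, fun i => gm_mul (gm_y _)
      (mem_Gm_zero.2 fun x hx => h x hx _ (y_mem (P := S.P) (hx a ha) i)) (add_zero _)⟩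
  have := S.y_ne a.castSucc
  beta_reduce
  rw [(rep_self (S := S) D).div]
  field_simp
  ring

/-- `H² = 0` for tangent vectors to the cone -/
theorem split (hΓ : Qt Γ) (hb : ∀ i, b i ∈ Gm S 1 Finset.univ) (h0 : b ⬝ᵥ pd S = 0) :
    ∃ p q r : Fin 4 → F, (∀ i, p i ∈ Gm S 1 {0, 1}) ∧ (∀ i, q i ∈ Gm S 1 {1, 2}) ∧
      (∀ i, r i ∈ Gm S 1 {0, 2}) ∧ p ⬝ᵥ pd S = 0 ∧ q ⬝ᵥ pd S = 0 ∧ r ⬝ᵥ pd S = 0 ∧
      b = r - p - q := by
  choose p hp q hq r hr e using fun i => h2_pos hΓ le_rfl (hb i)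
  choose w hw hw1 using exists_w (S := S) hΓ
  have e1 : b = r - p - q := funext e
  have e2 : p ⬝ᵥ pd S + q ⬝ᵥ pd S = r ⬝ᵥ pd S := by
    rw [e1, sub_dotProduct, sub_dotProduct] at h0
    linear_combination -h0
  obtain ⟨c, hc, e3, e4⟩ := h1 hΓ 4 (gm_dot hp (pd_mem hΓ (by simp)) rfl)
    (gm_dot hq (pd_mem hΓ (by simp)) rfl) (e2 ▸ gm_dot hr (pd_mem hΓ (by simp)) rfl)
  have hv : ∀ a i, (c a • w a) i ∈ Gm S 1 {a} := fun a i => gm_mul (hc a) (hw a i) rfl
  have hd : ∀ a, (c a • w a) ⬝ᵥ pd S = c a := fun a => by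
    rw [smul_dotProduct, hw1, smul_eq_mul, mul_one]
  refine ⟨p - (c 0 • w 0 - c 1 • w 1), q - (c 1 • w 1 - c 2 • w 2), r - (c 0 • w 0 - c 2 • w 2),
    fun i => sub_mem (hp i) (sub_mem (gm_left (hv 0 i)) (gm_right (hv 1 i))),
    fun i => sub_mem (hq i) (sub_mem (gm_left (hv 1 i)) (gm_right (hv 2 i))),
    fun i => sub_mem (hr i) (sub_mem (gm_left (hv 0 i)) (gm_right (hv 2 i))), ?_, ?_, ?_, ?_⟩
  · rw [sub_dotProduct, sub_dotProduct, hd, hd, e3, sub_self]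
  · rw [sub_dotProduct, sub_dotProduct, hd, hd, e4, sub_self]
  · rw [sub_dotProduct, sub_dotProduct, hd, hd, ← e2, e3, e4]
    ring
  · rw [e1]
    abel

/-- `H²(T) = 0` -/
theorem h2_tangent (hΓ : Qt Γ) (B : Module.Basis (Fin 2) F Ω[F⁄ℂ]) (h : Fld S Finset.univ D) :
    ∃ D₁ D₂ D₃, Fld S {0, 1} D₁ ∧ Fld S {1, 2} D₂ ∧ Fld S {0, 2} D₃ ∧ D = D₃ - D₁ - D₂ := by
  obtain ⟨b, h1, h2⟩ := h.rep Finset.univ_nonempty
  obtain ⟨p, q, r, hp, hq, hr, tp, tq, tr, rfl⟩ := split hΓ h2 (h1.tan hΓ)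
  obtain ⟨D₁, d1⟩ := exists_rep hΓ B tp
  obtain ⟨D₂, d2⟩ := exists_rep hΓ B tq
  obtain ⟨D₃, d3⟩ := exists_rep hΓ B tr
  exact ⟨D₁, D₂, D₃, d1.fld (by simp) hp, d2.fld (by simp) hq, d3.fld (by simp) hr,
    h1.uniq ((d3.sub d1).sub d2)⟩

theorem RV.neg {x : Pts S.P} (h : RV x D) : RV x (-D) := fun a ha => neg_mem (h a ha)

theorem coc_of {η : Fin 3 → Derivation ℂ F F} (h01 : Fld S {0, 1} (η 0 - η 1))
    (h12 : Fld S {1, 2} (η 1 - η 2)) (h02 : Fld S {0, 2} (η 0 - η 2)) : Coc S η := by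
  have h0 : ∀ a, ∀ x : Pts S.P, RV x (η a - η a) := fun a x f _ => by
    rw [sub_self]; exact zero_mem _
  have h1 : ∀ a b, Fld S {a, b} (η a - η b) → ∀ x ∈ U S b, x ∈ U S a → RV x (η b - η a) :=
    fun a b h x hb ha => neg_sub (η a) (η b) ▸ RV.neg (h x (mem_UI_two.2 ⟨ha, hb⟩))
  intro a b x ha hb
  fin_cases a <;> fin_cases b
  exacts [h0 _ x, h01 x (mem_UI_two.2 ⟨ha, hb⟩), h02 x (mem_UI_two.2 ⟨ha, hb⟩),
    h1 0 1 h01 x ha hb, h0 _ x, h12 x (mem_UI_two.2 ⟨ha, hb⟩), h1 0 2 h02 x ha hb,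
    h1 1 2 h12 x ha hb, h0 _ x]

/-- the deformation which is dual to the hyperplane class -/
theorem exists_theta (hΓ : Qt Γ) (B : Module.Basis (Fin 2) F Ω[F⁄ℂ]) :
    ∃ (η : Fin 3 → Derivation ℂ F F) (p q r : Fin 4 → F), Coc S η ∧ Rep S (η 1 - η 2) q ∧
      (∀ i, p i ∈ Gm S 1 {0, 1}) ∧ (∀ i, q i ∈ Gm S 1 {1, 2}) ∧ (∀ i, r i ∈ Gm S 1 {0, 2}) ∧
      eH S • S.y = r - p - q := by
  obtain ⟨p, q, r, hp, hq, hr, tp, tq, tr, e⟩ := split (b := eH S • S.y) hΓ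
    (fun i => gm_mul eH_mem (gm_y i) (zero_add _)) ((rep_y _).tan hΓ)
  obtain ⟨D₁, d1⟩ := exists_rep hΓ B tp
  obtain ⟨D₂, d2⟩ := exists_rep hΓ B tq
  obtain ⟨D₃, d3⟩ := exists_rep hΓ B tr
  have e1 : D₃ - D₁ - D₂ = 0 := ((d3.sub d1).sub d2).uniq (e ▸ rep_y _)
  have e2 : D₃ - D₂ = D₁ := by rw [← sub_eq_zero, ← e1]; abel
  refine ⟨![D₃, D₂, 0], p, q, r, coc_of ?_ ?_ ?_, by simpa using d2, hp, hq, hr, e⟩
  · simpa [e2] using d1.fld (by simp) hp
  · simpa using d2.fld (by simp) hq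
  · simpa using d3.fld (by simp) hr

end Crest.Agent.X262.Be94
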